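import Vale.Agent.N154.Br

/-!
An exact capacity criterion for reconstruction of the 3-state and 4-state Potts channels on every
locally finite tree.
-/

namespace Vale.Agent.Results.P154.A0Capacity

open Vale.Agent.N154

universe u

theorem result (q : ℕ) (hq : q = 3 ∨ q = 4) (lam : ℝ) (h0 : 0 < lam) (h1 : lam < 1) :
    -- (1) every locally finite tree: reconstruction iff positive capacity
    (∀ κ : List ℕ → ℕ, TreeCriterion.{u} κ q lam (PosCap κ lam (q - 2))) ∧
    -- (2) spherically symmetric trees
    ∀ k : ℕ → ℕ, (∀ n, 1 ≤ k n) → TreeCriterion.{u} (fun v => k v.length) q lam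
      (Summable fun n => (1 / (lam ^ (2 * n) * ∏ j ∈ Finset.range n, (k j : ℝ))) ^ (q - 2)) := by
  refine ⟨criterion hq h0 h1, fun k hk => ?_⟩
  rw [← posCap_sph h0 hk]
  exact criterion hq h0 h1 _

end Vale.Agent.Results.P154.A0Capacity
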