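import Vale.Agent.N154A.Main

/-!
Reconstruction for the 4-state Potts channel with a negative eigenvalue: up to seven children, and
proper 4-colourings of the `d`-ary tree.
-/

namespace Vale.Agent.Results.P154.A0FourColours

open MeasureTheory Filter Topology Vale.Agent.P154 Vale.Agent.P154B7

universe u

theorem result :
    (∀ lam : ℝ, -1 / 3 ≤ lam → lam < 0 →
      (∀ d : ℕ, 2 ≤ d → d ≤ 7 → Threshold.{u} (regularOffspring d) 4 lam d) ∧
      ∀ d : ℝ, 0 < d → d ≤ 7 → Threshold.{u} (poissonOffspring d) 4 lam d) ∧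
    ∀ d : ℕ, 2 ≤ d →
      (∃ (Ω : Type) (_ : MeasurableSpace Ω) (P : Measure Ω) (N : List ℕ → Ω → ℕ)
        (σ : List ℕ → Ω → Fin 4), IsBroadcast (regularOffspring d) 4 (-1 / 3) P N σ) ∧
      ∀ (Ω : Type u) [MeasurableSpace Ω] (P : Measure Ω) (N : List ℕ → Ω → ℕ)
        (σ : List ℕ → Ω → Fin 4), IsBroadcast (regularOffspring d) 4 (-1 / 3) P N σ →
        ((∃ l : ℝ, 0 < l ∧ Tendsto (adv P N σ) atTop (𝓝 l)) ↔ 8 ≤ d) ∧
        (Tendsto (adv P N σ) atTop (𝓝 0) ↔ d ≤ 7) := by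
  refine ⟨fun lam h0 h1 => ⟨fun d _ hd => ?_, fun d d0 hd => ?_⟩,
    fun d _ => ⟨exists_broadcast (reg0 d) (reg1 d) 0 N154A.p3, fun Ω _ P N σ hb => ?_⟩⟩
  · have : (d : ℝ) ≤ 7 := by exact_mod_cast hd
    exact N154A.below (reg0 d) (reg1 d) (reg0 7) (reg1 7) (N154A.dom_reg hd)
      N154A.Up.nonrec_seven h0 h1 d.cast_nonneg (by linarith)
  · exact N154A.below (poi0 d0) (poi1 d) (poi0 (by norm_num)) (poi1 7) (N154A.dom_poi d0.le hd)
      N154A.Up.nonrec_poi_seven h0 h1 d0.le (by linarith)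
  · rw [hb.adv_eq 0]
    exact N154A.colour_reg d

end Vale.Agent.Results.P154.A0FourColours
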